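import Crest.Agent.X261.Shp21.Fch_Mg
import Crest.Agent.X261.EnP.Main
import Crest.Agent.X261.Pole.AsyI
import Crest.Agent.X261.Pole.Ray_Mg
import Crest.Agent.X261.Law.Fld_Mg
import Crest.Agent.X261.Fin.All_Mg

/-!
# Row 261, EN (helper54), file `Inst`: the instance of `EnP.Dat`

`datStmt : EnP.DatStmt`, `enK : Sk.EnK`.
-/

set_option autoImplicit false
set_option linter.unusedSectionVars false
set_option linter.dupNamespace false

open Set Filter Topology Metric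
open scoped Pointwise

namespace Crest.Agent.X261.En.Inst

open Crest.Agent.R275.Geo Crest.Agent.R275.Core144
open Crest.Agent.R275.OmT75 (dl)
open Crest.Agent.R273.Defs_333 Crest.Agent.R273.UCov_914
open Crest.Agent.R281.Kp_487 (KP)
open Crest.Agent.X261.Ans (HA)
open Crest.Agent.X261.Top (HolV FCh Fol dW upF)
open Crest.Agent.X261.Pole Crest.Agent.X261.Two Crest.Agent.X261.BT
open Crest.Agent.X261.Cov.K (pullKP pos_pull iso_deck)
open Crest.Agent.X261.En.HolF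

noncomputable section

variable {n p r : ℕ} {X : Type} [TopologicalSpace X] {A : Atl n X} {G : Type} [Group G]
  {D : MonD A G} {F : Fol D p}

theorem deck_symm (g : G) (j : A.ι × G) (z : Cn n) :
    g • ((D.atl G).e j).symm z = ((D.atl G).e (j.1, j.2 * g⁻¹)).symm z := D.deck_pt g j.1 j.2 _

theorem inv_symm (g : G) (j : A.ι × G) (z : Cn n) :
    g⁻¹ • ((D.atl G).e (j.1, j.2 * g⁻¹)).symm z = ((D.atl G).e j).symm z := by
  rw [← deck_symm, inv_smul_smul]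

theorem holV_deck (g : G) {U : Set (D.cov G)} {q : ℕ} {f : D.cov G → Cn q}
    (h : HolV (D.atl G) U f) : HolV (D.atl G) {y | g • y ∈ U} fun y => f (g • y) :=
  fun (j : A.ι × G) => by
    refine ((h (j.1, j.2 * g⁻¹)).congr fun z _ => congrArg f (deck_symm g j z)).mono
      fun z hz => ⟨hz.1, ?_⟩
    exact (congrArg (· ∈ U) (deck_symm g j z)).mp hz.2

/-- the translate of a foliated chart -/
def tr (g : G) (C : FCh F.T r (upF D F.e)) : FCh F.T r (upF D F.e) where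
  i := (C.i.1, C.i.2 * g⁻¹)
  φ := (Homeomorph.smul g).symm.transOpenPartialHomeomorph C.φ
  sub _ hy := D.deck_mem_sheet.1 (C.sub hy)
  tgt := C.tgt
  hol₁ := holV_deck g⁻¹ C.hol₁
  hol₂ := holV_deck g⁻¹ C.hol₂
  hol' := C.hol'
  c y := C.c (g⁻¹ • y)
  c_hol := by
    refine (DifferentiableOn.congr C.c_hol fun z _ => congrArg C.c (inv_symm g C.i z)).mono
      fun z hz => ⟨hz.1, ?_⟩
    exact (congrArg (· ∈ C.φ.source) (inv_symm g C.i z)).mp hz.2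
  c_ne _ hy := C.c_ne _ hy
  gen y hy := by
    refine (C.gen (g⁻¹ • y) hy).trans ?_
    change _ = C.c (g⁻¹ • y) • dW (D.atl G) (C.i.1, C.i.2 * g⁻¹) (fun y => (C.φ (g⁻¹ • y)).1) y
    simp only [dW, dl, inv_symm g C.i]
    rfl
  plq y hy h0 z hz e := by
    have := C.plq (g⁻¹ • y) hy (F.T.inv _ _ h0) (g⁻¹ • z) hz e
    rwa [F.T.W_inv _ _ h0, smul_mem_smul_set_iff] at this

theorem tr_φ (g : G) (C : FCh F.T r (upF D F.e)) (x : D.cov G) : (tr g C).φ (g • x) = C.φ x :=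
  congrArg C.φ (inv_smul_smul g x)

theorem tr_src (g : G) (C : FCh F.T r (upF D F.e)) (x : D.cov G) :
    g • x ∈ (tr g C).φ.source ↔ x ∈ C.φ.source := by
  change g⁻¹ • g • x ∈ C.φ.source ↔ _
  rw [inv_smul_smul]

theorem tr_lam (h : HM F.L) (g : G) (C : FCh F.T r (upF D F.e)) (x : D.cov G) :
    Geo.lam (D.pullHM (F := G) h) (tr g C) (g • x) = Geo.lam (D.pullHM (F := G) h) C x := by
  unfold Geo.lam
  rw [show (tr g C).c (g • x) = C.c x from congrArg C.c (inv_smul_smul g x)]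
  rfl

theorem tr_F (H : KP A) (g : G) (C : FCh F.T r (upF D F.e)) {y : Cn p} {B : Cn p →L[ℂ] Cn p}
    {h : ℝ} {f : D.cov G → ℝ} : f ∈ (pch (tr g C)).F (pullKP D G H) y B h ↔
      (fun x => f (g • x)) ∈ (pch C).F (pullKP D G H) y B h := by
  have e : ∀ q, (pch (tr g C)).pt q = g • (pch C).pt q := fun q => (deck_symm g C.i _).symm
  simp only [PCh.mem_F, e]
  rfl

/-- the inner part of a foliated chart -/
def Oc (C : FCh F.T r (upF D F.e)) : Set (D.cov G) := {x | x ∈ C.φ.source ∧ ‖(C.φ x).1‖ < 1}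

theorem isOpen_Oc (C : FCh F.T r (upF D F.e)) : IsOpen (Oc C) :=
  C.φ.continuousOn.fst.norm.isOpen_inter_preimage C.φ.open_source (isOpen_Iio (a := (1 : ℝ)))

theorem mem_Oc (C : FCh F.T r (upF D F.e)) (x : D.cov G) (hx : x ∈ C.φ.source) (h : C.φ x = 0) :
    x ∈ Oc C := ⟨hx, by simp [h]⟩

theorem cover [T2Space X] (hn : p + r = n) {x : D.cov G} (hx : x ∈ F.T.M0) :
    ∃ C : FCh F.T r (upF D F.e), x ∈ Oc C := by
  by_contra hc
  have h1 : x ∈ F.Z := Geo.compl_eq hn F Oc (fun _ _ h => h.1) mem_Oc ▸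
    fun h => hc (mem_iUnion.1 h)
  obtain ⟨q, hq⟩ := (D.atl G).cover x
  obtain ⟨c, hc, e⟩ := F.gen x hx q x (F.T.T_mem x hx) hq
  have h2 : dW (D.atl G) q (F.T.π x) x ≠ 0 := by
    rw [Frb.Main.dW_eq (Fol.tube_an F.T hx (F.T.T_mem x hx) hq).differentiableAt]
    exact Frb.Main.wdg_row_ne hn (Fol.tube_surj F.T hx (F.T.T_mem x hx) hq)
  exact smul_ne_zero hc h2 (e.symm.trans (h1 q.1))

variable [T2Space X] [Finite A.ι] [Countable G] [MeasurableSpace (D.cov G)] [BorelSpace (D.cov G)]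
  {H : KP A} (hH : (pullKP D G H).Pos) (hS : Slow (pullKP D G H))

theorem sym (g : G) : Sym (lsOf hH hS) (MulAction.toPerm g) := by
  refine ⟨fun f => ⟨fun hf => ?_, fun hf => QQ.iso (iso_deck D H g) hf⟩, fun f hf => ?_⟩
  · have h1 : (fun x => f (g • g⁻¹ • x)) ∈ QQ (pullKP D G H) := QQ.iso (iso_deck D H g⁻¹) hf
    simp only [smul_inv_smul] at h1
    exact h1
  · have h0 : f ∈ QQ (pullKP D G H) := hf
    have h1 := En_iso (a := f) (γ := Homeomorph.smul g) hH h0.1 (iso_deck D H g)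
    simp only [Homeomorph.smul_apply] at h1
    change -En (pullKP D G H) (fun x => f (g • x)) = -En (pullKP D G H) f
    rw [h1]

/-- the pole families -/
def Xc (C : FCh F.T r (upF D F.e)) (y : Cn p) : PF (lsOf hH hS) :=
  Xp (pch C) (geo_esOf hH hS) y

theorem Xc_F (C : FCh F.T r (upF D F.e)) {y : Cn p} (hy : ‖y‖ < 1) :
    (Xc hH hS C y).F = Shp21.Fs (pch C) (pullKP D G H) y := Xp_F' _ hy.le

theorem Xc_s0 (C : FCh F.T r (upF D F.e)) (y : Cn p) : (Xc hH hS C y).s0 = 2 := Xp_s0 _ y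

theorem Xc_hol (C : FCh F.T r (upF D F.e)) :
    Two.Hol (esOf hH hS).toDS (Xc hH hS C) (ball 0 1) 2 := hol_Xp _

theorem Xc_tr (g : G) (C : FCh F.T r (upF D F.e)) {y : Cn p} (hy : y ∈ ball (0 : Cn p) 1) :
    Tr (MulAction.toPerm g) (Xc hH hS C y) (Xc hH hS (tr g C) y) := by
  refine ⟨(Xc_s0 ..).trans (Xc_s0 ..).symm, fun s _ h f _ => ?_⟩
  rw [Xc_F hH hS _ (mem_ball_zero_iff.1 hy), Xc_F hH hS _ (mem_ball_zero_iff.1 hy)]
  exact tr_F H g C

theorem Xc_F23 {x₀ : D.cov G} (h₀ : x₀ ∈ F.T.M0) (C : FCh F.T r (upF D F.e)) {x : D.cov G}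
    (hx : x ∈ Oc C) (hT : x ∈ F.T.T x₀) : F23 (pullKP D G H) (F.T.T x₀) (F.T.π x₀) (F.T.π x₀ x)
      (Xc hH hS C (C.φ x).1).F := by
  rw [Xc_F hH hS C hx.2]
  exact Shp21.crude C _ h₀ hx.1 hT hx.2.le

/-- the data -/
def dat (hn : p + r = n) (hp : 1 ≤ p) (h : HM F.L) {k : ℝ}
    (ha : ∀ C : FCh F.T r (upF D F.e), ∀ x ∈ Oc C, x ∈ F.T.M0 → x ∉ F.T.Bad →
      (Xc hH hS C (C.φ x).1).Asy k p)
    (hV : ∀ x₀ ∈ F.T.M0, ∃ V, 0 ≤ V ∧ Pole2.Vol (pullKP D G H) (F.T.T x₀) (F.T.π x₀) V ∧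
      k = V * Pole2.k1 p) :
    EnP.Dat (HA.of (D.atl G)) G (Rn.wtD D h) (lsOf hH hS) (Cn p) k p :=
  have ha' : ∀ C : FCh F.T r (upF D F.e), ∀ x ∈ Oc C \ (F.T.M0ᶜ ∪ F.T.Bad),
      (Xc hH hS C (C.φ x).1).Asy k p := fun C x hx =>
    ha C x hx.1 (not_not.1 fun h => hx.2 (.inl h)) fun h => hx.2 (.inr h)
  have hc : Cmp (esOf hH hS).toDS (lsOf hH hS) := ⟨rfl, rfl⟩
  { κ := FCh F.T r (upF D F.e)
    O := Oc
    opn := isOpen_Oc
    dsc := Geo.dsc hn F Oc (fun _ _ h => h.1) mem_Oc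
    plr := Geo.plr hn F Oc (fun _ _ h => h.1) mem_Oc
    S := F.T.M0ᶜ ∪ F.T.Bad
    thin := Geo.thin F.T
    σ := tr
    O_inv := fun g C x => and_congr (tr_src g C x) (by rw [tr_φ])
    S_inv := Geo.bad_inv F.T
    t := fun C x => (C.φ x).1
    B := fun _ => ball 0 1
    B_opn := fun _ => isOpen_ball
    t_mem := fun _ _ hx => mem_ball_zero_iff.2 hx.2
    t_hol := fun C j => (C.hol₁ j).mono fun _ hz => ⟨hz.1, hz.2.1⟩
    t_inv := fun g C x _ => by rw [tr_φ]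
    lam := Geo.lam (D.pullHM (F := G) h)
    lam_psh := fun C => Geo.lam_psh _ C (isOpen_Oc C) fun _ h => h.1
    lam_inv := fun g C x _ => tr_lam h g C x
    X := Xc hH hS
    X_inv := fun g C y hy s a f hf => by
      rw [Xc_F hH hS _ (mem_ball_zero_iff.1 hy)] at hf ⊢
      refine (tr_F H g C).2 ?_
      simp only [inv_smul_smul]
      exact hf
    asy := ha'
    inc := fun C C' x hx c hc => by
      rw [Xc_F hH hS _ hx.1.1.2, Xc_F hH hS _ hx.1.2.2]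
      exact Shp21.inc C _ C' (not_not.1 fun h => hx.2 (.inl h)) hx.1.1.1 hx.1.2.1 hx.1.1.2.le
        hx.1.2.2.le hc
    law := fun C C' x hx ε hε => by
      have h₀ : x ∈ F.T.M0 := not_not.1 fun h => hx.2 (.inl h)
      obtain ⟨V, V0, hV, hk⟩ := hV x h₀
      obtain ⟨C₀, hC⟩ := Shp21.pair C (pullKP D G H) C' h₀ (F.T.T_mem x h₀) hx.1.1.1 hx.1.2.1
        hx.1.1.2 hx.1.2.2
      refine Law.field hH hS (Pole2.tb_of_tube F.T h₀) hV V0 hp hk (C := C₀)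
        (X := fun z => Xc hH hS C (C.φ z).1) (X' := fun z => Xc hH hS C' (C'.φ z).1)
        (B := fun z => Shp21.Bm C x (C.φ z).1) (B' := fun z => Shp21.Bm C' x (C'.φ z).1)
        (hC.mono ?_) hε
      rintro z ⟨k1, k2, k3, k4, k5, k6, k7, k8, k9⟩ hz
      refine ⟨k1, k6, k7, ha' C z ⟨⟨k2, k4⟩, hz⟩, ha' C' z ⟨⟨k3, k5⟩, hz⟩, ?_, ?_,
        Geo.lam_sub hn _ (Rn93.upF_tr F) C C' k2 k3
          (Fol.tube_an F.T h₀ k1 (C'.sub k3)).differentiableAt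
          (Shp21.dW_t C h₀ k2 k1 (C.sub k2)) (Shp21.dW_t C' h₀ k3 k1 (C'.sub k3))⟩
      · rwa [Xc_F hH hS _ k4]
      · rwa [Xc_F hH hS _ k5]
    ray := fun C y hy l hl m hm => ⟨_, (eventually_ge_atTop 4).mono fun s hs x hx hxy =>
      PCh.ray' (C := pch C) (geo_esOf hH hS) hx.1.2.le hy.1.2.le (Xp_F _ hx.1.2.le)
        (Xp_F _ hy.1.2.le) (ha' C x hx) (ha' C y hy) hl hm
        ((Xp_s0 _ _).trans_lt (by linarith)) ((Xp_s0 _ _).trans_lt (by linarith)) hs hxy⟩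
    D_psh := fun C c _ => (Xc_hol hH hS C).psh_Dl hc isOpen_ball k p c
    D_inv := fun g C y hy c => (Xc_tr hH hS g C hy).Dl (sym hH hS g) c 0
    star := fun C C' x hx y hy l hl m hm => Two.star hc (Xc_hol hH hS C) (Xc_hol hH hS C')
      (mem_ball_zero_iff.2 hx.1.2) (mem_ball_zero_iff.2 hy.1.2) (ha' C x hx) (ha' C' y hy) hl hm
    U := fun Y Y' l m τ => UU Y Y' k p l m τ
    U_psh := fun C C' l _ m hm τ => psh_UU hc isOpen_ball isOpen_ball (Xc_hol hH hS C)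
      (Xc_hol hH hS C') k p l hm τ
    U_eq := fun _ _ h1 h2 _ hl _ hm _ => UU_eq h1 h2 hl hm
    U_symm := fun Y Y' _ _ _ => UU_comm Y Y'
    U_inv := fun g C C' y hy y' hy' _ _ _ =>
      (Xc_tr hH hS g C hy).UU (sym hH hS g) (Xc_tr hH hS g C' hy') }

theorem datStmt : EnP.DatStmt := by
  intro n X _ _ _ _ A _ _ P H hH G _ _ D hc p h1 h2 F h _ _ hS
  have hn : p + (n - p) = n := by omega
  obtain ⟨k, hk, ha, hV⟩ := asy_tube (pos_pull D G hH) hS F.T h1 h2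
    (fun x₀ h₀ x hx hb c hc => Fin.fin_cov D P hH F.T h₀ hx hb hc)
    (Y := fun C x => Xc (pos_pull D G hH) hS C (C.φ x).1) (fun x hx => cover hn hx)
    fun x₀ h₀ C x hx hT => Xc_F23 _ hS h₀ C hx hT
  exact ⟨k, hk, ⟨dat _ hS hn h1 h ha hV⟩⟩


end

end Crest.Agent.X261.En.Inst
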